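import Vale.Agent.P088.R2.H321.ZI.PW2
import Vale.Agent.P088.R2.H591.C.JetU
import Vale.Agent.P088.R2.H205.C.SpecW

/-!
# Region I: row PW
-/

open Set Filter
open scoped ContDiff Topology

noncomputable section

namespace Vale.Agent.P088.R2.H321.ZI

open Vale.Agent.P088.LR Vale.Agent.P088.HY
open Vale.Agent.P088.R2.H644 Vale.Agent.P088.R2.H205.CP
open Vale.Agent.P088.R2.H31.EP (Cst Pk PkOk gi prS EvC sml sml_le sml_pos)
open Vale.Agent.P088.R2.H238.C (Th Te LI NuI r2_ge N_pos K_pos N_ge uth_uta)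
open Vale.Agent.P088.R2.H973.W (DD dr)
open Vale.Agent.P088.R2.H591.C (UJ Wf)

variable {n : ℕ} {q : Cst} {d : Pk n}

/-- The constant of `Φ'''`, `Φ''''`. -/
def CdQ (q : Cst) : ℝ := |q.ph.Ct 1| + |q.ph.Ct 2|

/-- The thresholds of row PW. -/
structure Tw (a c s₀ : ℝ) (C₁ : ℝ → ℝ) (q : Cst) : Prop where
  e1 : 0 < q.e₁
  a3 : 3 * q.aC ≤ a
  c3 : 3 * q.cK ≤ c
  c7 : 7 * q.cK ≤ 1
  k0 : 0 ≤ q.cK
  c9 : 9 * q.c₀ ^ 2 ≤ s₀
  M1 : C₁ (CdQ q) ≤ q.M₀ ^ (9 / 10 : ℝ)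

theorem EvC.tw {a c s₀ : ℝ} (ha : 0 < a) (hc : 0 < c) (hs : 0 < s₀) (C₁ : ℝ → ℝ) :
    EvC (Tw a c s₀ C₁) := by
  have h2 := H31.EP.EvC.pos
  have h3 := H31.EP.EvC.at_aC (fun _ t => t ≤ a / 3) (fun _ => sml_le (by positivity))
  have h4 := H31.EP.EvC.at_cK (fun _ t => t ≤ c / 3 ∧ t ≤ 1 / 7) (fun _ =>
    (sml_le (by positivity)).and (sml_le (by positivity)))
  have h5 := H31.EP.EvC.at_c₀ (fun _ t => t ≤ s₀ / 9 ∧ t ≤ 1) (fun _ =>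
    (sml_le (by positivity)).and (sml_le (by positivity)))
  have h6 := H31.EP.EvC.at_M₀ (fun q t => C₁ (CdQ q) ≤ t ^ (9 / 10 : ℝ)) (fun q =>
    (tendsto_rpow_atTop (by norm_num : (0 : ℝ) < 9 / 10)).eventually_ge_atTop _)
  refine (h2.and ((h3.and h4).and (h5.and h6))).mono ?_
  rintro q ⟨⟨⟨b1, b2, b3, b4, b5, b6, b7, b8, b9, b10⟩,
    ⟨c1, c2, c3, c4, c5, c6, c7⟩, e1, e2⟩, ⟨d3, d4, d5⟩, ⟨d6, d7⟩, d8⟩
  have k0 : 0 < q.cK := by tauto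
  have c0 : 0 < q.c₀ := b6
  refine ⟨by tauto, by linarith, by linarith, by linarith, k0.le, ?_, d8⟩
  nlinarith

/-- The pointwise facts. -/
theorem pt_of {a c s₀ : ℝ} {C₁ : ℝ → ℝ} (t : Tw a c s₀ C₁ q) (h : PkOk q d) (T : Th q)
    (E : Te n q) {z : VV n} (hz : z ∈ OI q d) (L : LI q d z) :
    C₁ (CdQ q) ≤ (fnQ q d).φ₂ (d.u q z) ∧
    (fnQ q d).φ₂ (d.u q z) ≤ a * Real.exp (d.u q z) ∧
    Real.exp (d.u q z) * qq z ≤ c * (fnQ q d).φ₂ (d.u q z) ∧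
    Real.exp (d.u q z) * qq z ≤ (fnQ q d).φ₁ (d.u q z) ∧ qq z ≤ s₀ ∧ qq z ≤ 1 ∧
    |(fnQ q d).φ₃ (d.u q z)| ≤ CdQ q * (fnQ q d).φ₂ (d.u q z) ∧
    |(fnQ q d).φ₄ (d.u q z)| ≤ CdQ q * (fnQ q d).φ₂ (d.u q z) ∧
    (fnQ q d).φ₂ (d.u q z) ≤ Real.exp (d.u q z) ∧ 1 ≤ Real.exp (d.u q z) := by
  have hE := Real.exp_pos (d.u q z)
  have nu := L.nu
  have hK := K_pos h (d.u q z)
  have hM0 : 0 ≤ q.M₀ := zero_le_one.trans T.M1
  have h1 : q.M₀ ^ (9 / 10 : ℝ) ≤ deriv d.Φ (d.u q z) ^ (9 / 10 : ℝ) :=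
    Real.rpow_le_rpow hM0 nu.N1 (by norm_num)
  have hta : d.u q z ≤ d.uta q := by
    have := uth_uta h T
    have := T.R0
    linarith [nu.ut]
  have hm : d.E q z * d.r2 z ≤ 2 * q.cK * d.Kf q z := hz.2.1
  have hr := r2_ge h T E z
  have hqq : qq z = HY.sq (z.1 - z.2) := rfl
  have hq0 : 0 ≤ qq z := qq_nonneg z
  have eE : d.E q z = Real.exp (d.u q z) := rfl
  have eK : d.Kf q z = deriv (deriv d.Φ) (d.u q z) := rfl
  rw [← hqq] at hr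
  rw [eE, eK] at hm
  have hk := t.k0
  have hEq : Real.exp (d.u q z) * qq z ≤ 3 * q.cK * deriv (deriv d.Φ) (d.u q z) := by
    have h2 := mul_le_mul_of_nonneg_left hr hE.le
    have h3 : 0 ≤ q.cK * deriv (deriv d.Φ) (d.u q z) := mul_nonneg hk hK.le
    linarith
  have hδ := L.δ
  have hc0 := T.c0
  have hqs : qq z ≤ 9 * q.c₀ ^ 2 := by
    have h4 : HY.sq (z.1 - z.2) = √(HY.sq (z.1 - z.2)) ^ 2 :=
      (Real.sq_sqrt (H475.sq0 _)).symm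
    rw [hqq, h4]
    have h6 := Real.sqrt_nonneg (HY.sq (z.1 - z.2))
    nlinarith
  have kd1 := h.top.kd 1 (d.u q z) hta
  have kd2 := h.top.kd 2 (d.u q z) hta
  have l1 : q.ph.Ct 1 ≤ CdQ q := by
    unfold CdQ
    linarith [le_abs_self (q.ph.Ct 1), abs_nonneg (q.ph.Ct 2)]
  have l2 : q.ph.Ct 2 ≤ CdQ q := by
    unfold CdQ
    linarith [le_abs_self (q.ph.Ct 2), abs_nonneg (q.ph.Ct 1)]
  have hE1 : 1 ≤ Real.exp (d.u q z) := Real.one_le_exp nu.u0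
  have ha1 := T.aC1
  refine ⟨t.M1.trans (h1.trans nu.Kl), ?_, ?_, ?_, hqs.trans t.c9, ?_, ?_, ?_, ?_, hE1⟩
  · exact nu.KE.trans (mul_le_mul_of_nonneg_right t.a3 hE.le)
  · exact hEq.trans (mul_le_mul_of_nonneg_right t.c3 hK.le)
  · show _ ≤ deriv d.Φ (d.u q z)
    have h7 := t.c7
    have h8 := nu.Kn
    have h9 : 0 < deriv d.Φ (d.u q z) := N_pos h T _
    have h10 : 3 * q.cK * deriv (deriv d.Φ) (d.u q z) ≤
        3 * q.cK * (41 / 20 * deriv d.Φ (d.u q z)) :=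
      mul_le_mul_of_nonneg_left h8 (by linarith)
    have h11 : 7 * q.cK * deriv d.Φ (d.u q z) ≤ 1 * deriv d.Φ (d.u q z) :=
      mul_le_mul_of_nonneg_right h7 h9.le
    have h12 : 0 ≤ q.cK * deriv d.Φ (d.u q z) := mul_nonneg hk h9.le
    linarith
  · have := T.c1
    nlinarith
  · exact kd1.trans (mul_le_mul_of_nonneg_right l1 hK.le)
  · exact kd2.trans (mul_le_mul_of_nonneg_right l2 hK.le)
  · refine nu.KE.trans ?_
    have := mul_le_mul_of_nonneg_right ha1 hE.le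
    show 3 * q.aC * Real.exp (d.u q z) ≤ Real.exp (d.u q z)
    linarith

/-- The transfer at a point. -/
theorem pw_pt {δ η ε₁ ε₂ ep C ρ : ℝ} (hn : (1 : ℝ) ≤ n) (hδ : 0 < δ) (hδ1 : δ ≤ 1 / 2)
    (hη0 : 0 ≤ η) (hη : η ≤ δ) (hηe : 32 * n * η ≤ ep) (he1 : 1000 * (n ^ 2 * ε₁) ≤ δ * ep)
    (he10 : 0 ≤ ε₁) (he2 : 4 * ε₂ ≤ ep) {z : VV n} {E K : ℝ} (hE : 1 ≤ E) (hK0 : 0 ≤ K)
    (hKE : K ≤ E) {u : VV n → ℝ} {N : ℝ} {ν : Fin n → ℝ} (J : UJ η ρ N K ν u z)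
    {W W' f g : VV n → ℝ} {st sta : ℝ}
    (j1 : ∀ i, (E + 1) * (dx i W z - dx i W' z) ^ 2 ≤ ε₁ ∧
      (E + 1) * (dy i W z - dy i W' z) ^ 2 ≤ ε₁)
    (h6 : 8 * (1 - δ / 4) * (K * dd (Uu W' f z, Uv W' g z) u z ^ 2 +
      E * s2 (Uu W' f z - Uv W' g z)) - 32 * n * (1 + δ / 4) * (E ^ 2 * ((f z + g z) / 2) ^ 2) -
      C * (E * K * ((f z - g z) / 2) ^ 2) -
      8 * n * η * (s2 (Uu W' f z) + s2 (Uv W' g z)) ≤ st)
    (h7 : |sta - st| ≤ ε₂ * (s2 (Uu W f z) + s2 (Uv W g z) + f z ^ 2 + g z ^ 2)) :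
    8 * (1 - δ) * (E * s2 (Uu W f z - Uv W g z)) +
      K * (∑ i, ν i * (Uu W f z i + Uv W g z i)) ^ 2 -
      32 * n * (1 + δ) * (E ^ 2 * hb f g z ^ 2) - C * (E * K * hd f g z ^ 2) -
      ep * (s2 (Uu W f z) + s2 (Uv W g z) + f z ^ 2 + g z ^ 2) ≤ sta := by
  obtain ⟨A, hA⟩ : ∃ A : V n, A = fun i => f z * (dx i W z - dx i W' z) := ⟨_, rfl⟩
  obtain ⟨B, hB⟩ : ∃ B : V n, B = fun i => g z * (dy i W z - dy i W' z) := ⟨_, rfl⟩
  have eU : Uu W f z = Uu W' f z + A := by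
    funext i
    rw [hA, Pi.add_apply]
    show f z * dx i W z - dx i f z = (f z * dx i W' z - dx i f z) + _
    ring
  have eV : Uv W g z = Uv W' g z + B := by
    funext i
    rw [hB, Pi.add_apply]
    show g z * dy i W z - dy i g z = (g z * dy i W' z - dy i g z) + _
    ring
  have hη1 : η ≤ 1 := by linarith
  have h5 : (E + 1) * s2 A ≤ n * ε₁ * f z ^ 2 := by
    rw [hA]
    exact s2_smul_le fun i => (j1 i).1
  have h5' : (E + 1) * s2 B ≤ n * ε₁ * g z ^ 2 := by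
    rw [hB]
    exact s2_smul_le fun i => (j1 i).2
  have h1 : s2 (Uu W' f z) ≤ 2 * s2 (Uu W f z) + 2 * s2 A := by
    have e : Uu W' f z = Uu W f z - A := by rw [eU]; simp
    rw [e]
    exact s2_sub_le' _ _
  have h1' : s2 (Uv W' g z) ≤ 2 * s2 (Uv W g z) + 2 * s2 B := by
    have e : Uv W' g z = Uv W g z - B := by rw [eV]; simp
    rw [e]
    exact s2_sub_le' _ _
  have hδ4 : 0 < δ / 4 := by positivity
  have hAB : s2 (A - B) ≤ 2 * (s2 A + s2 B) := by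
    have := s2_sub_le' A B
    linarith
  have hAB' : s2 (A + B) ≤ 2 * (s2 A + s2 B) := by
    have := s2_add_le A B
    linarith
  have h2 : s2 (Uu W f z - Uv W g z) ≤ (1 + δ / 4) * s2 (Uu W' f z - Uv W' g z) +
      (1 + 1 / (δ / 4)) * (2 * (s2 A + s2 B)) := by
    have e : Uu W f z - Uv W g z = (Uu W' f z - Uv W' g z) + (A - B) := by
      rw [eU, eV]
      abel
    rw [e]
    refine (s2_young _ _ hδ4).trans (add_le_add_right ?_ _)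
    exact mul_le_mul_of_nonneg_left hAB (by positivity)
  have h3 : (∑ i, ν i * (Uu W f z i + Uv W g z i)) =
      (∑ i, ν i * (Uu W' f z i + Uv W' g z i)) + ∑ i, ν i * (A + B) i := by
    rw [← Finset.sum_add_distrib]
    refine Finset.sum_congr rfl fun i _ => ?_
    rw [eU, eV, Pi.add_apply, Pi.add_apply, Pi.add_apply]
    ring
  have h3' : (∑ i, ν i * (A + B) i) ^ 2 ≤ 5 * n * (2 * (s2 A + s2 B)) :=
    (cs_nu (nu5 J hη1) _).trans (mul_le_mul_of_nonneg_left hAB' (by positivity))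
  have h4 : (∑ i, ν i * (Uu W' f z i + Uv W' g z i)) ^ 2 ≤
      dd (Uu W' f z, Uv W' g z) u z ^ 2 + η * s2 (Uu W' f z - Uv W' g z) :=
    J.nu (Uu W' f z, Uv W' g z)
  exact clo hn hδ hδ1 hη0 hη hηe he1 he10 he2 hE hK0 hKE (s2_nn _) (s2_nn _) (s2_nn _) (s2_nn _)
    (s2_nn _) (mul_nonneg (sq_nonneg _) (sq_nonneg _)) h1 h1' h2 h3 h3' h4 h5 h5' h6 h7

/-- Monotonicity in `δ`. -/
theorem pwI_mono {W Ef Kf : VV n → ℝ} {ν : Fin n → VV n → ℝ} {σ τ : H961.GW.Sl (VV n) (Fin n)}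
    {v₁ v₂ : VV n → ℝ} {δ δ' C ep : ℝ} {O : Set (VV n)} (hδ : δ' ≤ δ) (hE : ∀ z ∈ O, 0 ≤ Ef z)
    (h : pwI σ τ v₁ v₂ W Ef Kf ν δ' C ep O) : pwI σ τ v₁ v₂ W Ef Kf ν δ C ep O := by
  intro f g hf hg z hz
  refine le_trans ?_ (h f g hf hg z hz)
  have h1 : 0 ≤ Ef z * s2 (Uu W f z - Uv W g z) := mul_nonneg (hE z hz) (s2_nn _)
  have h2 : 0 ≤ n * (Ef z ^ 2 * hb f g z ^ 2) :=
    mul_nonneg (Nat.cast_nonneg n) (mul_nonneg (sq_nonneg _) (sq_nonneg _))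
  have h3 := mul_le_mul_of_nonneg_right hδ h1
  have h4 := mul_le_mul_of_nonneg_right hδ h2
  linarith

/-- **Row PW.** -/
theorem rowPW : RowPW := by
  intro n hn3 δ₀ hδ₀
  have hn : 1 ≤ n := by omega
  have hn1 : (1 : ℝ) ≤ n := by exact_mod_cast hn
  obtain ⟨δ, hδd⟩ : ∃ δ, δ = min δ₀ (1 / 2) := ⟨_, rfl⟩
  have hδ : 0 < δ := by rw [hδd]; exact lt_min hδ₀ (by norm_num)
  have hδ1 : δ ≤ 1 / 2 := by rw [hδd]; exact min_le_right _ _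
  have hδ2 : δ ≤ δ₀ := by rw [hδd]; exact min_le_left _ _
  obtain ⟨a, c, s₀, η₀, C, ha, hc, hs, hη0, hC, H⟩ := PIu n hn 2000 (δ / 4) (by norm_num)
    (by positivity) (by linarith)
  choose! C₁ hC₁ H using H
  refine ⟨C, hC, fun ep hep => ?_⟩
  obtain ⟨η, hηd⟩ : ∃ η, η = min η₀ (min δ (ep / (32 * n))) := ⟨_, rfl⟩
  have hη : 0 < η := by rw [hηd]; exact lt_min hη0 (lt_min hδ (by positivity))
  have hη1 : η ≤ η₀ := by rw [hηd]; exact min_le_left _ _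
  have hη2 : η ≤ δ := by rw [hηd]; exact (min_le_right _ _).trans (min_le_left _ _)
  have hη3 : 32 * n * η ≤ ep := by
    have : η ≤ ep / (32 * n) := by rw [hηd]; exact (min_le_right _ _).trans (min_le_right _ _)
    rw [le_div_iff₀ (by positivity)] at this
    linarith
  obtain ⟨ε₁, he1d⟩ : ∃ ε₁, ε₁ = δ * ep / (1000 * n ^ 2) := ⟨_, rfl⟩
  have he1 : 0 < ε₁ := by rw [he1d]; positivity
  have he1' : 1000 * (n ^ 2 * ε₁) ≤ δ * ep := by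
    rw [he1d]
    apply le_of_eq
    field_simp
  have he2 : 0 < ep / 4 := by positivity
  refine ((EvC.tw ha hc hs C₁).and ((H238.C.loc n).and ((H591.C.uj n hη).and
    ((H591.C.jetSta n hn he2).and (H591.C.jet1 n hn he1))))).mono ?_
  rintro q ⟨t, ⟨T, E, hL⟩, hu, hs, hj⟩ d h
  refine pwI_mono hδ2 (fun z _ => (Real.exp_pos _).le) ?_
  intro f g _ _ z hz
  have L := hL d h z hz
  obtain ⟨ρ, J⟩ := hu d h z hz
  obtain ⟨p1, p2, p3, p4, p5, p6, p7, p8, p9, p10⟩ := pt_of t h T E hz L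
  have hCd : 0 ≤ CdQ q := add_nonneg (abs_nonneg _) (abs_nonneg _)
  have key := H (CdQ q) hCd (d.u q) (fnQ q d) z η ρ (uQ_sm h T E) (fnQ_D h t.e1) h.top.sm
    (H960.X.pd_prF t.e1).sm (N_pos h T _) p1 p2 p3 p4 p5 p7 p8
    (fnQ_PP t.e1 (qq_nonneg z) p6) (ud_of J) hη1 (Uu (Wf q d) f z) (Uv (Wf q d) g z) (f z) (g z)
  have h7 := hs d h z hz f g
  rw [nX_x, nX_y, H349.ZI.sta_st (Wf_sm h T E t.e1)] at h7
  exact pw_pt hn1 hδ hδ1 hη.le hη2 hη3 he1' he1.le (by linarith) p10 (K_pos h _).le p9 J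
    (hj d h z hz) key h7

end Vale.Agent.P088.R2.H321.ZI
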