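import Vale.Agent.P088.R2.H321.ZI.PU8
import Vale.Agent.P088.R2.H591.C.JB
import Vale.Agent.P088.R2.H205.C.SpecR

/-!
# Region I: from the flat frame to the slots (numbers), the jet of `u`
-/

open Set Filter
open scoped ContDiff Topology

noncomputable section

namespace Vale.Agent.P088.R2.H321.ZI

open Vale.Agent.P088.LR Vale.Agent.P088.HY
open Vale.Agent.P088.R2.H644 Vale.Agent.P088.R2.H205.CP
open Vale.Agent.P088.R2.H406.U (Dir dirx diry)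
open Vale.Agent.P088.R2.H973.W (DD dr)
open Vale.Agent.P088.R2.H591.C (UJ)

variable {n : ℕ}

theorem dir_dr {a : VV n} (ha : a ∈ Dir n) : ∃ i, a = dr n i := by
  obtain ⟨i, h | h⟩ := ha
  · exact ⟨Sum.inl i, h⟩
  · exact ⟨Sum.inr i, h⟩

/-- The jet of helper591 gives the derivatives used in `PIu`. -/
theorem ud_of {η ρ N K : ℝ} {ν : Fin n → ℝ} {u : VV n → ℝ} {z : VV n} (h : UJ η ρ N K ν u z) :
    UD η ρ N K u z where
  ρ0 := h.r0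
  ρη := h.r1
  Nρ := h.rN
  u1 := by
    intro a ha
    obtain ⟨i, rfl⟩ := dir_dr ha
    exact h.g1 i
  gd i := h.gd i
  u2 := by
    intro a ha b hb
    obtain ⟨i, rfl⟩ := dir_dr ha
    obtain ⟨j, rfl⟩ := dir_dr hb
    exact h.hj [i, j] (by simp) (by simp)
  u3 := by
    intro a ha b hb c hc
    obtain ⟨i, rfl⟩ := dir_dr ha
    obtain ⟨j, rfl⟩ := dir_dr hb
    obtain ⟨k, rfl⟩ := dir_dr hc
    exact h.hj [i, j, k] (by simp) (by simp)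
  u4 := by
    intro a ha b hb c hc d hd
    obtain ⟨i, rfl⟩ := dir_dr ha
    obtain ⟨j, rfl⟩ := dir_dr hb
    obtain ⟨k, rfl⟩ := dir_dr hc
    obtain ⟨l, rfl⟩ := dir_dr hd
    exact h.hj [i, j, k, l] (by simp) (by simp)
  cv v := h.cv v

/-! ## Vectors -/

theorem s2_nn (v : V n) : 0 ≤ s2 v := Finset.sum_nonneg fun _ _ => sq_nonneg _

theorem s2_add_le (v w : V n) : s2 (v + w) ≤ 2 * s2 v + 2 * s2 w := by
  unfold s2
  rw [Finset.mul_sum, Finset.mul_sum, ← Finset.sum_add_distrib]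
  refine Finset.sum_le_sum fun i _ => ?_
  rw [Pi.add_apply]
  nlinarith [sq_nonneg (v i - w i)]

theorem s2_sub_le' (v w : V n) : s2 (v - w) ≤ 2 * s2 v + 2 * s2 w := by
  unfold s2
  rw [Finset.mul_sum, Finset.mul_sum, ← Finset.sum_add_distrib]
  refine Finset.sum_le_sum fun i _ => ?_
  rw [Pi.sub_apply]
  nlinarith [sq_nonneg (v i + w i)]

theorem s2_young (v w : V n) {θ : ℝ} (hθ : 0 < θ) :
    s2 (v + w) ≤ (1 + θ) * s2 v + (1 + 1 / θ) * s2 w := by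
  unfold s2
  rw [Finset.mul_sum, Finset.mul_sum, ← Finset.sum_add_distrib]
  refine Finset.sum_le_sum fun i _ => ?_
  rw [Pi.add_apply]
  have h : 0 ≤ (θ * v i - w i) ^ 2 / θ := by positivity
  have e : (θ * v i - w i) ^ 2 / θ = θ * v i ^ 2 - 2 * (v i * w i) + 1 / θ * w i ^ 2 := by
    field_simp
    ring
  rw [e] at h
  nlinarith

theorem s2_smul_le {a : V n} {E ε₁ x : ℝ} (h : ∀ i, (E + 1) * a i ^ 2 ≤ ε₁) :
    (E + 1) * s2 (fun i => x * a i) ≤ n * ε₁ * x ^ 2 := by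
  unfold s2
  rw [Finset.mul_sum]
  have : ∀ i ∈ Finset.univ, (E + 1) * (x * a i) ^ 2 ≤ ε₁ * x ^ 2 := fun i _ => by
    have := mul_le_mul_of_nonneg_right (h i) (sq_nonneg x)
    nlinarith
  refine (Finset.sum_le_sum this).trans_eq ?_
  rw [Finset.sum_const, Finset.card_univ, Fintype.card_fin, nsmul_eq_mul]
  ring

theorem cs_nu {ν : Fin n → ℝ} (h : ∀ i, ν i ^ 2 ≤ 5) (w : V n) :
    (∑ i, ν i * w i) ^ 2 ≤ 5 * n * s2 w := by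
  refine (Finset.sum_mul_sq_le_sq_mul_sq _ _ _).trans ?_
  refine mul_le_mul_of_nonneg_right ?_ (s2_nn w)
  refine (Finset.sum_le_sum fun i _ => h i).trans_eq ?_
  rw [Finset.sum_const, Finset.card_univ, Fintype.card_fin, nsmul_eq_mul]
  ring

/-! ## The numbers -/

/-- The term `E s2 (U - V)`. -/
theorem cloA {n δ ε₁ ep E T SD SDf SAB : ℝ} (hδ : 0 < δ) (hδ1 : δ ≤ 1 / 2)
    (he : 1000 * (n * ε₁) ≤ δ * ep) (hnε : 0 ≤ n * ε₁) (hE0 : 0 ≤ E) (pDf : 0 ≤ SDf)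
    (hT : 0 ≤ T) (h2 : SD ≤ (1 + δ / 4) * SDf + (1 + 1 / (δ / 4)) * (2 * SAB))
    (hS : E * SAB ≤ n * ε₁ * T) :
    8 * (1 - δ) * (E * SD) ≤ 8 * (1 - 3 * δ / 4) * (E * SDf) + 8 * (ep / 100) * T := by
  have hep : 0 ≤ ep := by
    by_contra hc
    nlinarith [not_le.1 hc]
  have p1 : 0 ≤ 1 + 1 / (δ / 4) := by positivity
  have b3 : 0 ≤ E * SDf := mul_nonneg hE0 pDf
  have b4 : 0 ≤ ep / 100 * T := mul_nonneg (div_nonneg hep (by norm_num)) hT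
  have a1 : E * SD ≤ (1 + δ / 4) * (E * SDf) + (1 + 1 / (δ / 4)) * (2 * (n * ε₁ * T)) := by
    have b1 := mul_le_mul_of_nonneg_left h2 hE0
    have b2 : (1 + 1 / (δ / 4)) * (2 * (E * SAB)) ≤ (1 + 1 / (δ / 4)) * (2 * (n * ε₁ * T)) :=
      mul_le_mul_of_nonneg_left (mul_le_mul_of_nonneg_left hS zero_le_two) p1
    calc E * SD ≤ E * ((1 + δ / 4) * SDf + (1 + 1 / (δ / 4)) * (2 * SAB)) := b1
      _ = (1 + δ / 4) * (E * SDf) + (1 + 1 / (δ / 4)) * (2 * (E * SAB)) := by ring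
      _ ≤ _ := add_le_add_right b2 _
  have a2 : (1 + 1 / (δ / 4)) * (2 * (n * ε₁ * T)) ≤ ep / 100 * T := by
    have b1 : 1 + 1 / (δ / 4) ≤ 5 / δ := by
      have e : 1 + 1 / (δ / 4) = (δ + 4) / δ := by field_simp
      rw [e, div_le_div_iff_of_pos_right hδ]
      linarith
    have b2 : 2 * (n * ε₁) ≤ δ * ep / 500 := by linarith
    have b3 : (1 + 1 / (δ / 4)) * (2 * (n * ε₁)) ≤ 5 / δ * (δ * ep / 500) :=
      mul_le_mul b1 b2 (mul_nonneg zero_le_two hnε) (by positivity)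
    have b4 : 5 / δ * (δ * ep / 500) = ep / 100 := by field_simp; ring
    rw [b4] at b3
    have b5 := mul_le_mul_of_nonneg_right b3 hT
    calc (1 + 1 / (δ / 4)) * (2 * (n * ε₁ * T)) = (1 + 1 / (δ / 4)) * (2 * (n * ε₁)) * T := by
          ring
      _ ≤ _ := b5
  have b1 : E * SD ≤ (1 + δ / 4) * (E * SDf) + ep / 100 * T :=
    a1.trans (add_le_add_right a2 _)
  have b2 := mul_le_mul_of_nonneg_left b1 (show 0 ≤ 8 * (1 - δ) by linarith)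
  have b5 : 8 * (1 - δ) * ((1 + δ / 4) * (E * SDf)) ≤ 8 * (1 - 3 * δ / 4) * (E * SDf) := by
    have e : 8 * (1 - δ) * ((1 + δ / 4) * (E * SDf)) =
      8 * (1 - 3 * δ / 4) * (E * SDf) - 2 * (δ ^ 2 * (E * SDf)) := by ring
    rw [e]
    have := mul_nonneg (sq_nonneg δ) b3
    linarith
  have b6 : 8 * (1 - δ) * (ep / 100 * T) ≤ 8 * (ep / 100 * T) :=
    mul_le_mul_of_nonneg_right (by linarith) b4
  rw [mul_add] at b2
  linarith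

/-- The term `K P²`. -/
theorem cloB {n η ε₁ ep E K T P D Pf Q SDf SAB : ℝ} (hn : 1 ≤ n) (hη0 : 0 ≤ η)
    (he : 1000 * (n ^ 2 * ε₁) ≤ ep) (hT : 0 ≤ T) (hK0 : 0 ≤ K) (hKE : K ≤ E)
    (pDf : 0 ≤ SDf) (h3 : P = Pf + Q) (h3' : Q ^ 2 ≤ 5 * n * (2 * SAB))
    (h4 : Pf ^ 2 ≤ D ^ 2 + η * SDf) (hS : K * SAB ≤ n * ε₁ * T) :
    K * P ^ 2 ≤ 2 * (K * D ^ 2) + 2 * η * (E * SDf) + ep / 50 * T := by
  have b1 : P ^ 2 ≤ 2 * Pf ^ 2 + 2 * Q ^ 2 := by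
    rw [h3]
    nlinarith [sq_nonneg (Pf - Q)]
  have b2 : P ^ 2 ≤ 2 * (D ^ 2 + η * SDf) + 2 * (5 * n * (2 * SAB)) := by linarith
  have b3 := mul_le_mul_of_nonneg_left b2 hK0
  have b4 : η * (K * SDf) ≤ η * (E * SDf) :=
    mul_le_mul_of_nonneg_left (mul_le_mul_of_nonneg_right hKE pDf) hη0
  have b5 : 20 * n * (K * SAB) ≤ 20 * n * (n * ε₁ * T) :=
    mul_le_mul_of_nonneg_left hS (by linarith)
  have b6 : 20 * (n ^ 2 * ε₁) * T ≤ ep / 50 * T := mul_le_mul_of_nonneg_right (by linarith) hT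
  calc K * P ^ 2 ≤ K * (2 * (D ^ 2 + η * SDf) + 2 * (5 * n * (2 * SAB))) := b3
    _ = 2 * (K * D ^ 2) + 2 * (η * (K * SDf)) + 20 * n * (K * SAB) := by ring
    _ ≤ 2 * (K * D ^ 2) + 2 * (η * (E * SDf)) + 20 * n * (n * ε₁ * T) := by linarith
    _ = 2 * (K * D ^ 2) + 2 * η * (E * SDf) + 20 * (n ^ 2 * ε₁) * T := by ring
    _ ≤ _ := by linarith

/-- The error terms. -/
theorem cloC {n η ε₁ ep T S Sf SAB : ℝ} (hn : 1 ≤ n) (hη0 : 0 ≤ η) (hη1 : η ≤ 1)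
    (hηe : 32 * n * η ≤ ep) (he : 1000 * (n ^ 2 * ε₁) ≤ ep) (he0 : 0 ≤ n ^ 2 * ε₁)
    (hT : 0 ≤ T) (hS0 : 0 ≤ S)
    (h1 : Sf ≤ 2 * S + 2 * SAB) (hS : SAB ≤ n * ε₁ * T) :
    8 * n * η * Sf ≤ ep / 2 * S + ep / 50 * T := by
  have b2 : 0 ≤ 8 * n * η := mul_nonneg (by linarith) hη0
  have b1 : Sf ≤ 2 * S + 2 * (n * ε₁ * T) := by linarith
  have b3 := mul_le_mul_of_nonneg_left b1 b2
  have b4 : 8 * n * η * (2 * S) ≤ ep / 2 * S := by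
    have := mul_le_mul_of_nonneg_right hηe hS0
    linarith
  have c5 : 16 * (n ^ 2 * ε₁) * η ≤ 16 * (n ^ 2 * ε₁) * 1 :=
    mul_le_mul_of_nonneg_left hη1 (by linarith)
  have c6 : 16 * (n ^ 2 * ε₁) * η * T ≤ ep / 50 * T :=
    mul_le_mul_of_nonneg_right (by linarith) hT
  have b5 : 8 * n * η * (2 * (n * ε₁ * T)) = 16 * (n ^ 2 * ε₁) * η * T := by ring
  rw [mul_add, b5] at b3
  linarith

theorem cloD {n δ η ep C E K D T S Sf st sta SD SDf H₁ H₂ KP : ℝ}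
    (hn : 1 ≤ n) (hδ : 0 < δ) (hδ1 : δ ≤ 1 / 2) (hη : η ≤ δ)
    (hep : 0 ≤ ep) (hT : 0 ≤ T) (pS : 0 ≤ S) (pH₁ : 0 ≤ H₁) (pE : 0 ≤ E * SDf)
    (pD : 0 ≤ K * D ^ 2)
    (a3 : 8 * (1 - δ) * (E * SD) ≤ 8 * (1 - 3 * δ / 4) * (E * SDf) + 8 * (ep / 100) * T)
    (a4 : KP ≤ 2 * (K * D ^ 2) + 2 * η * (E * SDf) + ep / 50 * T)
    (a6 : 8 * n * η * Sf ≤ ep / 2 * S + ep / 50 * T)
    (h6 : 8 * (1 - δ / 4) * (K * D ^ 2 + E * SDf) - 32 * n * (1 + δ / 4) * H₁ - C * H₂ -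
      8 * n * η * Sf ≤ st)
    (h7 : |sta - st| ≤ ep / 4 * (S + T)) :
    8 * (1 - δ) * (E * SD) + KP - 32 * n * (1 + δ) * H₁ - C * H₂ - ep * (S + T) ≤ sta := by
  have a8 := (abs_le.1 h7).1
  have a11 : 32 * n * (1 + δ / 4) * H₁ ≤ 32 * n * (1 + δ) * H₁ :=
    mul_le_mul_of_nonneg_right (mul_le_mul_of_nonneg_left (by linarith) (by linarith)) pH₁
  have a12 : 2 * η * (E * SDf) ≤ 2 * δ * (E * SDf) :=
    mul_le_mul_of_nonneg_right (by linarith) pE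
  have a13 : 2 * (K * D ^ 2) ≤ 8 * (1 - δ / 4) * (K * D ^ 2) :=
    mul_le_mul_of_nonneg_right (by linarith) pD
  have a14 : 0 ≤ ep * T := mul_nonneg hep hT
  have a15 : 0 ≤ ep * S := mul_nonneg hep pS
  have a16 : 0 ≤ δ * (E * SDf) := mul_nonneg hδ.le pE
  linarith only [a3, a4, a6, a8, a11, a12, a13, a14, a15, a16, h6]

theorem clo {n δ η ε₁ ε₂ ep C E K x y D P Pf Q st sta SU SV SUf SVf SD SDf SA SB H₁ H₂ : ℝ}
    (hn : 1 ≤ n) (hδ : 0 < δ) (hδ1 : δ ≤ 1 / 2) (hη0 : 0 ≤ η) (hη : η ≤ δ)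
    (hηe : 32 * n * η ≤ ep) (he1 : 1000 * (n ^ 2 * ε₁) ≤ δ * ep) (he10 : 0 ≤ ε₁)
    (he2 : 4 * ε₂ ≤ ep) (hE : 1 ≤ E) (hK0 : 0 ≤ K) (hKE : K ≤ E)
    (pU : 0 ≤ SU) (pV : 0 ≤ SV) (pDf : 0 ≤ SDf) (pA : 0 ≤ SA) (pB : 0 ≤ SB)
    (pH₁ : 0 ≤ H₁)
    (h1 : SUf ≤ 2 * SU + 2 * SA) (h1' : SVf ≤ 2 * SV + 2 * SB)
    (h2 : SD ≤ (1 + δ / 4) * SDf + (1 + 1 / (δ / 4)) * (2 * (SA + SB)))
    (h3 : P = Pf + Q) (h3' : Q ^ 2 ≤ 5 * n * (2 * (SA + SB))) (h4 : Pf ^ 2 ≤ D ^ 2 + η * SDf)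
    (h5 : (E + 1) * SA ≤ n * ε₁ * x ^ 2) (h5' : (E + 1) * SB ≤ n * ε₁ * y ^ 2)
    (h6 : 8 * (1 - δ / 4) * (K * D ^ 2 + E * SDf) - 32 * n * (1 + δ / 4) * H₁ - C * H₂ -
      8 * n * η * (SUf + SVf) ≤ st)
    (h7 : |sta - st| ≤ ε₂ * (SU + SV + x ^ 2 + y ^ 2)) :
    8 * (1 - δ) * (E * SD) + K * P ^ 2 - 32 * n * (1 + δ) * H₁ - C * H₂ -
      ep * (SU + SV + x ^ 2 + y ^ 2) ≤ sta := by
  obtain ⟨T, hTd⟩ : ∃ T, T = x ^ 2 + y ^ 2 := ⟨_, rfl⟩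
  obtain ⟨S, hSd⟩ : ∃ S, S = SU + SV := ⟨_, rfl⟩
  have eT : SU + SV + x ^ 2 + y ^ 2 = S + T := by rw [hTd, hSd]; ring
  have hT : 0 ≤ T := by rw [hTd]; exact add_nonneg (sq_nonneg _) (sq_nonneg _)
  have hS : 0 ≤ S := by rw [hSd]; exact add_nonneg pU pV
  have pAB : 0 ≤ SA + SB := add_nonneg pA pB
  have hE0 : 0 ≤ E := zero_le_one.trans hE
  have hb : (E + 1) * (SA + SB) ≤ n * ε₁ * T := by
    rw [hTd, mul_add, mul_add]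
    exact add_le_add h5 h5'
  have pEAB : 0 ≤ E * (SA + SB) := mul_nonneg hE0 pAB
  rw [add_mul, one_mul] at hb
  have e1 : E * (SA + SB) ≤ n * ε₁ * T := by linarith only [hb, pAB]
  have e2 : SA + SB ≤ n * ε₁ * T := by linarith only [hb, pEAB]
  have e3 : K * (SA + SB) ≤ n * ε₁ * T := (mul_le_mul_of_nonneg_right hKE pAB).trans e1
  have hn0 : 0 ≤ n := zero_le_one.trans hn
  have hep : 0 ≤ ep := le_trans (mul_nonneg (mul_nonneg (by norm_num) hn0) hη0) hηe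
  have g0 : 0 ≤ n ^ 2 * ε₁ := mul_nonneg (sq_nonneg _) he10
  have g1 : n * ε₁ ≤ n ^ 2 * ε₁ := mul_le_mul_of_nonneg_right (by nlinarith only [hn]) he10
  have g2 : δ * ep ≤ ep := by nlinarith only [hep, hδ1]
  have g3 : 1000 * (n ^ 2 * ε₁) ≤ ep := he1.trans g2
  have g4 : 1000 * (n * ε₁) ≤ δ * ep := by linarith only [g1, he1]
  have A := cloA hδ hδ1 g4 (mul_nonneg hn0 he10) hE0 pDf hT h2 e1
  have B := cloB hn hη0 g3 hT hK0 hKE pDf h3 h3' h4 e3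
  have h1s : SUf + SVf ≤ 2 * S + 2 * (SA + SB) := by rw [hSd]; linarith only [h1, h1']
  have Cc := cloC hn hη0 (by linarith only [hη, hδ1]) hηe g3 g0 hT hS h1s e2
  rw [eT] at h7 ⊢
  exact cloD hn hδ hδ1 hη hep hT hS pH₁ (mul_nonneg hE0 pDf) (mul_nonneg hK0 (sq_nonneg _))
    A B Cc h6 (h7.trans (mul_le_mul_of_nonneg_right (by linarith only [he2])
      (add_nonneg hS hT)))

end Vale.Agent.P088.R2.H321.ZI
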