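import Vale.Agent.P088.R2.H321.ZI.PW1
import Vale.Agent.P088.R2.H591.C.JetS
import Vale.Agent.P088.R2.H591.C.JS4
import Vale.Agent.P088.R2.H349.ZI.StaSt
import Vale.Agent.P088.R2.H960.X.Prof

/-!
# Region I, row PW: the functions of the true weight
-/

open Set Filter
open scoped ContDiff Topology

noncomputable section

namespace Vale.Agent.P088.R2.H321.ZI

open Vale.Agent.P088.LR Vale.Agent.P088.HY
open Vale.Agent.P088.R2.H644 Vale.Agent.P088.R2.H205.CP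
open Vale.Agent.P088.R2.H31.EP (Cst Pk PkOk gi prS EvC sml sml_le sml_pos)
open Vale.Agent.P088.R2.H464.Cu (mid contDiff_mid)
open Vale.Agent.P088.R2.H238.C (Th Te LI NuI gi_sm r2_sm dPhi_hd ddPhi_hd dPhi_sm N_pos K_pos)
open Vale.Agent.P088.R2.H973.W (DD dr)
open Vale.Agent.P088.R2.H591.C (UJ Wf)

variable {n : ℕ} {q : Cst} {d : Pk n}

/-- The functions of one variable of the true weight. -/
def fnQ (q : Cst) (d : Pk n) : Fn where
  φ := d.Φ
  φ₁ := deriv d.Φ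
  φ₂ := deriv (deriv d.Φ)
  φ₃ := iteratedDeriv 3 d.Φ
  φ₄ := iteratedDeriv 4 d.Φ
  Ψ := (H960.X.prF q.e₁).Φ
  Ψ₁ := (H960.X.prF q.e₁).Φ₁
  Ψ₂ := (H960.X.prF q.e₁).Φ₂
  Ψ₃ := (H960.X.prF q.e₁).Φ₃
  Ψ₄ := (H960.X.prF q.e₁).Φ₄

theorem fnQ_D (h : PkOk q d) (he : 0 < q.e₁) : FnD (fnQ q d) where
  a1 s := ((h.top.sm.differentiable (by simp)) s).hasDerivAt
  a2 s := dPhi_hd h s
  a3 s := ddPhi_hd h s
  a4 s := by
    have h1 : ContDiff ℝ ∞ (iteratedDeriv 3 d.Φ) := by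
      rw [iteratedDeriv_succ, iteratedDeriv_succ, iteratedDeriv_one]
      exact (contDiff_infty_iff_deriv.1 (contDiff_infty_iff_deriv.1 (dPhi_sm h)).2).2
    have h2 := ((h1.differentiable (by simp)) s).hasDerivAt
    have h3 : iteratedDeriv 4 d.Φ s = deriv (iteratedDeriv 3 d.Φ) s := by
      rw [iteratedDeriv_succ]
    exact h2.congr_deriv h3.symm
  b1 := (H960.X.pd_prF he).d1
  b2 := (H960.X.pd_prF he).d2
  b3 := (H960.X.pd_prF he).d3
  b4 := (H960.X.pd_prF he).d4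

theorem W0_fnQ (z : VV n) : W0 (d.u q) (fnQ q d) z = Wf q d z := rfl

theorem W0_fnQ' : W0 (d.u q) (fnQ q d) = Wf q d := rfl

theorem fnQ_PP (he : 0 < q.e₁) {s : ℝ} (h0 : 0 ≤ s) (h1 : s ≤ 1) : PP 2000 (fnQ q d) s where
  P0 := ((H960.X.pd_prF he).ps s h0 h1).1
  P0' := ((H960.X.pd_prF he).ps s h0 h1).2
  P1 := (H960.X.pd_prF he).b1 s h0 h1
  P2 := ((H960.X.pd_prF he).b2 s h0 h1).1
  P3 := ((H960.X.pd_prF he).b2 s h0 h1).2.1
  P4 := ((H960.X.pd_prF he).b2 s h0 h1).2.2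

theorem uQ_sm (h : PkOk q d) (T : Th q) (E : Te n q) : ContDiff ℝ ∞ (d.u q) := by
  have h1 : ContDiff ℝ ∞ fun z : VV n => d.l z.1 := h.lev.sm.comp contDiff_fst
  have h2 : ContDiff ℝ ∞ fun z : VV n => d.l z.2 := h.lev.sm.comp contDiff_snd
  have h3 : ContDiff ℝ ∞ fun z : VV n =>
      2 * ((d.F q).χ (H31.EP.r2 (gi d.s₁) z) * (d.F q).μ (d.l (mid z))) :=
    contDiff_const.mul ((h.ok.χs.comp (r2_sm h T E)).mul
      (h.ok.μs.comp (h.lev.sm.comp contDiff_mid)))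
  exact (h1.add h2).add h3

theorem WQ_sm (h : PkOk q d) (T : Th q) (E : Te n q) : ContDiff ℝ ∞ (d.W q) :=
  H31.EP.WT_smooth h.ok h.Θs h.ret.sm h.lev.sm (gi_sm h T E)

theorem cd_qq : ContDiff ℝ ∞ (qq : VV n → ℝ) := by
  have : (qq : VV n → ℝ) = fun z => ∑ i, (z.1 i - z.2 i) ^ 2 := rfl
  rw [this]
  refine ContDiff.sum fun i _ => ?_
  exact (((contDiff_apply ℝ ℝ i).comp contDiff_fst).sub
    ((contDiff_apply ℝ ℝ i).comp contDiff_snd)).pow 2

theorem Wf_sm (h : PkOk q d) (T : Th q) (E : Te n q) (he : 0 < q.e₁) :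
    ContDiff ℝ ∞ (Wf q d) := by
  have hu := uQ_sm h T E
  exact (h.top.sm.comp hu).add ((Real.contDiff_exp.comp hu).mul
    ((H960.X.pd_prF he).sm.comp cd_qq))

/-- `nX` is the square of the starred derivative. -/
theorem nX_x (W f : VV n → ℝ) (z : VV n) : H551.E.nX d.sx W f z = s2 (Uu W f z) := by
  unfold H551.E.nX s2
  refine Finset.sum_congr rfl fun i _ => ?_
  have e : ∀ f : VV n → ℝ, d.sx.D i f z = dx i f z := fun f => by
    unfold H961.GW.Sl.D Pk.sx H961.GW.slx dx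
    simp only [one_mul]
  unfold Ch.XX Uu
  rw [e, e]

theorem nX_y (W f : VV n → ℝ) (z : VV n) : H551.E.nX d.sy W f z = s2 (Uv W f z) := by
  unfold H551.E.nX s2
  refine Finset.sum_congr rfl fun i _ => ?_
  have e : ∀ f : VV n → ℝ, d.sy.D i f z = dy i f z := fun f => by
    unfold H961.GW.Sl.D Pk.sy H961.GW.sly dy
    simp only [one_mul]
  unfold Ch.XX Uv
  rw [e, e]

/-- The direction has bounded entries. -/
theorem nu5 {η ρ N K : ℝ} {ν : Fin n → ℝ} {u : VV n → ℝ} {z : VV n} (h : UJ η ρ N K ν u z)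
    (hη : η ≤ 1) (i : Fin n) : ν i ^ 2 ≤ 5 := by
  have h1 := h.nu (dr n (Sum.inl i))
  have h2 : (∑ j, ν j * ((dr n (Sum.inl i)).1 j + (dr n (Sum.inl i)).2 j)) = ν i := by
    have : ∀ j, ν j * ((dr n (Sum.inl i)).1 j + (dr n (Sum.inl i)).2 j) =
        if j = i then ν i else 0 := by
      intro j
      rw [H591.C.dr_add]
      show ν j * (if j = i then 1 else 0) = _
      split_ifs with hj
      · rw [hj, mul_one]
      · rw [mul_zero]
    rw [Finset.sum_congr rfl fun j _ => this j, Finset.sum_ite_eq']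
    simp
  have h3 : (∑ j, ((dr n (Sum.inl i)).1 j - (dr n (Sum.inl i)).2 j) ^ 2) = 1 := by
    have : ∀ j, ((dr n (Sum.inl i)).1 j - (dr n (Sum.inl i)).2 j) ^ 2 =
        if j = i then (1 : ℝ) else 0 := by
      intro j
      rw [H591.C.dr_sub]
      show (if j = i then (1 : ℝ) else 0) ^ 2 = _
      split_ifs with hj
      · norm_num
      · norm_num
    rw [Finset.sum_congr rfl fun j _ => this j, Finset.sum_ite_eq']
    simp
  rw [h2, h3] at h1
  have h4 := abs_le.1 (h.g1 (Sum.inl i))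
  have h5 : DD [dr n (Sum.inl i)] u z = fderiv ℝ u z (dr n (Sum.inl i)) := rfl
  rw [h5] at h4
  nlinarith

end Vale.Agent.P088.R2.H321.ZI
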